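import Mathlib

/-! # Hilbert 90 for `K ⊗ M` and the norm as a product over the Galois group (helper176) -/

namespace Vale.Agent.P011.H176

open Finset Module TensorProduct

set_option linter.unusedSectionVars false

section h90

variable {K A M : Type*} [Field K] [Infinite K] [CommRing A] [Nontrivial A] [Algebra K A]
  [FiniteDimensional K A] [Field M]

/-- **Hilbert 90** for a finite dimensional commutative algebra with an automorphism of finite
order which extends an automorphism of a field, all of whose powers are different there. -/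
theorem h90 (ι : M →+* A) (σ : A ≃ₐ[K] A) (s : M ≃+* M) (hσ : ∀ m, σ (ι m) = ι (s m)) {b : ℕ}
    (hb : 0 < b) (hinj : ∀ i < b, ∀ j < b, s ^ i = s ^ j → i = j) (hσb : σ ^ b = 1) (x : A)
    (hx : ∏ i ∈ range b, (σ ^ i) x = 1) : ∃ t : Aˣ, σ (t : A) = x * t := by
  classical
  obtain ⟨b', rfl⟩ : ∃ b', b = b' + 1 := ⟨b - 1, by omega⟩
  set y : A := ∏ i ∈ range b', (σ ^ (i + 1)) x with hy
  have hyx : y * x = 1 := by
    rw [← hx, prod_range_succ', pow_zero, AlgEquiv.one_apply]
  have hyp : ∏ i ∈ range (b' + 1), (σ ^ i) y = 1 := by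
    have h1 : (∏ i ∈ range (b' + 1), (σ ^ i) y) * ∏ i ∈ range (b' + 1), (σ ^ i) x = 1 := by
      rw [← prod_mul_distrib]
      refine prod_eq_one fun i _ => ?_
      rw [← map_mul, hyx, map_one]
    rwa [hx, mul_one] at h1
  -- the partial products
  let P : ℕ → A := fun i => ∏ j ∈ range i, (σ ^ j) y
  have hP0 : P 0 = 1 := by simp [P]
  have hPb : P (b' + 1) = 1 := hyp
  have hPs : ∀ i, y * σ (P i) = P (i + 1) := by
    intro i
    simp only [P]
    rw [prod_range_succ', pow_zero, AlgEquiv.one_apply, map_prod, mul_comm]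
    congr 1
    refine prod_congr rfl fun j _ => ?_
    rw [← AlgEquiv.mul_apply, ← pow_succ']
  let S : A →ₗ[K] A := ∑ i ∈ range (b' + 1), (LinearMap.mulLeft K (P i)) ∘ₗ
    ((σ ^ i : A ≃ₐ[K] A) : A →ₐ[K] A).toLinearMap
  have hS : ∀ θ, S θ = ∑ i ∈ range (b' + 1), P i * (σ ^ i) θ := by
    intro θ
    simp [S, LinearMap.sum_apply]
  have hfix : ∀ θ, y * σ (S θ) = S θ := by
    intro θ
    have h1 : y * σ (S θ) = ∑ i ∈ range (b' + 1), P (i + 1) * (σ ^ (i + 1)) θ := by
      rw [hS, map_sum, mul_sum]
      refine sum_congr rfl fun i _ => ?_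
      rw [map_mul, ← mul_assoc, hPs, ← AlgEquiv.mul_apply, ← pow_succ']
    rw [h1, hS, sum_range_succ, sum_range_succ', hPb, hσb, hP0, pow_zero]
  -- the maximal ideals
  have : IsArtinianRing A := IsArtinianRing.of_finite K A
  let V : Ideal A → Submodule K A := fun m => (m.restrictScalars K).comap S
  have hV : ∀ m : Ideal A, m.IsMaximal → V m ≠ ⊤ := by
    intro m hm htop
    let _ : Field (A ⧸ m) := Ideal.Quotient.field m
    let π : A →+* A ⧸ m := Ideal.Quotient.mk m
    let χ : Fin (b' + 1) → (M →* A ⧸ m) := fun i =>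
      ((π.comp ι).comp ((s ^ (i : ℕ) : M ≃+* M) : M →+* M) : M →+* A ⧸ m)
    have hχ : Function.Injective χ := by
      intro i j hij
      apply Fin.ext
      refine hinj i i.2 j j.2 ?_
      refine RingEquiv.ext fun θ => ?_
      have h1 := DFunLike.congr_fun hij θ
      exact (π.comp ι).injective h1
    have hLI := (linearIndependent_monoidHom M (A ⧸ m)).comp χ hχ
    rw [Fintype.linearIndependent_iff] at hLI
    have h0 := hLI (fun i => π (P i)) (by
      funext θ
      rw [Finset.sum_apply, Pi.zero_apply]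
      have h1 : S (ι θ) ∈ m := by
        have : ι θ ∈ V m := by rw [htop]; trivial
        exact this
      have h2 : π (S (ι θ)) = 0 := Ideal.Quotient.eq_zero_iff_mem.mpr h1
      rw [hS, map_sum, sum_range] at h2
      rw [← h2]
      refine sum_congr rfl fun i _ => ?_
      have h3 : (σ ^ (i : ℕ)) (ι θ) = ι ((s ^ (i : ℕ)) θ) := by
        generalize (i : ℕ) = n
        induction n with
        | zero => rfl
        | succ n ih =>
          rw [pow_succ', AlgEquiv.mul_apply, ih, hσ, pow_succ', RingAut.mul_apply]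
      rw [map_mul, h3]
      rfl) 0
    have h4 : P ((0 : Fin (b' + 1)) : ℕ) = 1 := hP0
    rw [h4, map_one] at h0
    exact one_ne_zero h0
  have hfin : Set.Finite {m : Ideal A | m.IsMaximal} := by
    have := (inferInstance : Finite (MaximalSpectrum A))
    have h1 : {m : Ideal A | m.IsMaximal} = Set.range (MaximalSpectrum.asIdeal (R := A)) := by
      ext m
      constructor
      · intro hm
        exact ⟨⟨m, hm⟩, rfl⟩
      · rintro ⟨m, rfl⟩
        exact m.isMaximal
    rw [h1]
    exact Set.finite_range _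
  obtain ⟨θ, hθ⟩ : ∃ θ, ∀ m : Ideal A, m.IsMaximal → S θ ∉ m := by
    by_contra hcon
    push Not at hcon
    refine Subspace.biUnion_ne_univ_of_top_notMem (k := K) (E := A)
      (s := hfin.toFinset.image V) ?_ ?_
    · intro h
      obtain ⟨m, hm, h⟩ := Finset.mem_image.mp h
      exact hV m (by simpa using hm) h
    · refine Set.eq_univ_of_forall fun θ => ?_
      obtain ⟨m, hm, h⟩ := hcon θ
      exact Set.mem_biUnion (Finset.mem_image_of_mem V (by simpa using hm)) h
  have hu : IsUnit (S θ) := by
    by_contra hnu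
    obtain ⟨m, hm, h⟩ := exists_max_ideal_of_mem_nonunits hnu
    exact hθ m hm h
  refine ⟨hu.unit, ?_⟩
  have h1 := hfix θ
  calc σ (S θ) = (y * x) * σ (S θ) := by rw [hyx, one_mul]
    _ = x * (y * σ (S θ)) := by ring
    _ = x * S θ := by rw [h1]

end h90

section norm

variable {k M : Type*} [Field k] [Field M] [Algebra k M] (K : Type*) [Field K] [Algebra k K]

/-- the action of an automorphism on `K ⊗ M` -/
noncomputable def tm (g : M ≃ₐ[k] M) : K ⊗[k] M ≃ₐ[K] K ⊗[k] M :=
  Algebra.TensorProduct.congr AlgEquiv.refl g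

@[simp] theorem tm_tmul (g : M ≃ₐ[k] M) (a : K) (m : M) : tm K g (a ⊗ₜ m) = a ⊗ₜ g m := rfl

variable {K} [Infinite k] [FiniteDimensional k M] [IsGalois k M]

/-- The norm of `K ⊗ M` is the product of the conjugates. -/
theorem norm_prod (x : K ⊗[k] M) : algebraMap K (K ⊗[k] M) (Algebra.norm K x) =
    ∏ g : M ≃ₐ[k] M, tm K g x := by
  classical
  let β := Module.finBasis k M
  let b₁ := Algebra.TensorProduct.basis K β
  let n := finrank k M
  let a : Fin n → K := fun j => b₁.repr x j
  have hx : x = ∑ j, a j ⊗ₜ[k] β j := by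
    conv_lhs => rw [← b₁.sum_repr x]
    refine sum_congr rfl fun j _ => ?_
    rw [Algebra.TensorProduct.basis_apply, TensorProduct.smul_tmul', smul_eq_mul, mul_one]
  let L : Fin n → Matrix (Fin n) (Fin n) k := fun j => Algebra.leftMulMatrix β (β j)
  let Mx : Matrix (Fin n) (Fin n) (MvPolynomial (Fin n) k) :=
    Matrix.of fun r c => ∑ j, MvPolynomial.X j * MvPolynomial.C (L j r c)
  have hMx : ∀ r c, Mx r c = ∑ j, MvPolynomial.X j * MvPolynomial.C (L j r c) := fun r c => rfl
  let P1 : MvPolynomial (Fin n) M := MvPolynomial.map (algebraMap k M) Mx.det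
  let P2 : MvPolynomial (Fin n) M :=
    ∏ g : M ≃ₐ[k] M, ∑ j, MvPolynomial.C (g (β j)) * MvPolynomial.X j
  have hP : P1 = P2 := by
    refine MvPolynomial.funext_set (fun _ => Set.range (algebraMap k M)) (fun _ =>
      Set.infinite_range_of_injective (algebraMap k M).injective) fun z hz => ?_
    have hz' : ∀ i, ∃ c : k, algebraMap k M c = z i := fun i => hz i (Set.mem_univ i)
    choose c hc using hz'
    have hz2 : z = algebraMap k M ∘ c := funext fun i => (hc i).symm
    have h1 : MvPolynomial.eval z P1 =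
        algebraMap k M (Algebra.norm k (∑ j, c j • β j)) := by
      have h3 : MvPolynomial.eval z P1 =
          algebraMap k M (MvPolynomial.eval₂Hom (RingHom.id k) c Mx.det) := by
        rw [MvPolynomial.map_eval₂Hom, MvPolynomial.eval_map, hz2]
        rfl
      rw [h3, RingHom.map_det, Algebra.norm_eq_matrix_det β]
      congr 2
      rw [map_sum]
      ext r t
      rw [RingHom.mapMatrix_apply, Matrix.map_apply, hMx, map_sum, Matrix.sum_apply]
      refine sum_congr rfl fun j _ => ?_
      rw [map_mul, map_smul, Matrix.smul_apply, smul_eq_mul]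
      simp [L]
    have h2 : MvPolynomial.eval z P2 = ∏ g : M ≃ₐ[k] M, g (∑ j, c j • β j) := by
      simp only [P2]
      rw [map_prod]
      refine prod_congr rfl fun g _ => ?_
      rw [map_sum, map_sum]
      refine sum_congr rfl fun j _ => ?_
      rw [map_mul, MvPolynomial.eval_C, MvPolynomial.eval_X, ← hc j, map_smul, Algebra.smul_def,
        mul_comm]
    rw [h1, h2, Algebra.norm_eq_prod_automorphisms]
  let Φ : MvPolynomial (Fin n) M →+* K ⊗[k] M := MvPolynomial.eval₂Hom
    (Algebra.TensorProduct.includeRight : M →ₐ[k] K ⊗[k] M).toRingHom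
    (fun j => a j ⊗ₜ[k] (1 : M))
  have hΦ2 : Φ P2 = ∏ g : M ≃ₐ[k] M, tm K g x := by
    simp only [P2]
    rw [map_prod]
    refine prod_congr rfl fun g _ => ?_
    conv_rhs => rw [hx]
    rw [map_sum, map_sum]
    refine sum_congr rfl fun j _ => ?_
    rw [map_mul, tm_tmul]
    simp [Φ]
  have hΦ1 : Φ P1 = algebraMap K (K ⊗[k] M) (Algebra.norm K x) := by
    have h3 : Φ P1 = algebraMap K (K ⊗[k] M)
        (MvPolynomial.eval₂Hom (algebraMap k K) a Mx.det) := by
      rw [MvPolynomial.map_eval₂Hom]
      simp only [Φ, P1]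
      rw [MvPolynomial.coe_eval₂Hom, MvPolynomial.eval₂_map, MvPolynomial.coe_eval₂Hom]
      congr 1
      refine RingHom.ext fun z => ?_
      simp [Algebra.TensorProduct.algebraMap_apply]
    rw [h3, RingHom.map_det, Algebra.norm_eq_matrix_det b₁]
    congr 2
    conv_rhs => rw [hx]
    rw [map_sum]
    ext r t
    rw [RingHom.mapMatrix_apply, Matrix.map_apply, hMx, map_sum, Matrix.sum_apply]
    refine sum_congr rfl fun j _ => ?_
    rw [map_mul, Algebra.leftMulMatrix_eq_repr_mul, Algebra.TensorProduct.basis_apply,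
      Algebra.TensorProduct.tmul_mul_tmul, mul_one, Algebra.TensorProduct.basis_repr_tmul]
    simp [L, Algebra.leftMulMatrix_eq_repr_mul]
  rw [← hΦ1, hP, hΦ2]

end norm

end Vale.Agent.P011.H176
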