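import Vale.Agent.P011.H176.HNP
import Vale.Agent.P011.H176.H90

/-! # Descent in a tower `k ⊂ F ⊂ M` of cyclic extensions (helper176) -/

namespace Vale.Agent.P011.H176

open Finset Module TensorProduct

set_option linter.unusedSectionVars false

section aut

variable {K A : Type*} [CommRing K] [CommRing A] [Algebra K A]

/-- an algebra automorphism as an automorphism of the monoid -/
def mA (σ : A ≃ₐ[K] A) : MulAut A := (σ : A ≃* A)

@[simp] theorem mA_apply (σ : A ≃ₐ[K] A) (x : A) : mA σ x = σ x := rfl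

theorem mA_pow (σ : A ≃ₐ[K] A) (i : ℕ) (x : A) : (mA σ ^ i) x = (σ ^ i) x := by
  induction i with
  | zero => rfl
  | succ i ih => rw [pow_succ', pow_succ', MulAut.mul_apply, AlgEquiv.mul_apply, ih, mA_apply]

/-- the automorphism of the group of units -/
def mU (σ : A ≃ₐ[K] A) : MulAut Aˣ := Units.mapEquiv (σ : A ≃* A)

@[simp] theorem mU_apply (σ : A ≃ₐ[K] A) (x : Aˣ) : ((mU σ x : Aˣ) : A) = σ x := rfl

theorem mU_pow (σ : A ≃ₐ[K] A) (i : ℕ) (x : Aˣ) : (((mU σ ^ i) x : Aˣ) : A) = (σ ^ i) (x : A) := by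
  induction i with
  | zero => rfl
  | succ i ih => rw [pow_succ', pow_succ', MulAut.mul_apply, AlgEquiv.mul_apply, mU_apply, ih]

theorem Sn_mU (σ : A ≃ₐ[K] A) (a : ℕ) (x : Aˣ) :
    ((Sn (mU σ) a x : Aˣ) : A) = ∏ i ∈ range a, (σ ^ i) (x : A) := by
  rw [Sn, Units.coe_prod]
  exact prod_congr rfl fun i _ => mU_pow σ i x

theorem prod_pow_mul (σ : A ≃ₐ[K] A) (a b : ℕ) (x : A) :
    ∏ i ∈ range (a * b), (σ ^ i) x =
      ∏ i ∈ range b, ((σ ^ a) ^ i) (∏ j ∈ range a, (σ ^ j) x) := by
  have h := Sn_prod (mA σ) a b x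
  simp only [Sn, ← mA_pow] at h ⊢
  rw [h]
  refine prod_congr rfl fun i _ => ?_
  rw [← pow_mul, mA_pow, mA_pow, ← pow_mul]

end aut

section cyc

variable {k M : Type*} [Field k] [Field M] [Algebra k M] (K : Type*) [Field K] [Algebra k K]

theorem tm_pow (g : M ≃ₐ[k] M) (i : ℕ) : tm K g ^ i = tm K (g ^ i) := by
  induction i with
  | zero =>
    refine AlgEquiv.ext fun x => ?_
    induction x using TensorProduct.induction_on with
    | zero => simp
    | add x y hx hy => rw [map_add, map_add, hx, hy]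
    | tmul a m => rfl
  | succ i ih =>
    refine AlgEquiv.ext fun x => ?_
    rw [pow_succ', AlgEquiv.mul_apply, ih]
    induction x using TensorProduct.induction_on with
    | zero => simp
    | add x y hx hy => rw [map_add, map_add, map_add, hx, hy]
    | tmul a m => rw [tm_tmul, tm_tmul, tm_tmul, pow_succ', AlgEquiv.mul_apply]

variable {K} [Infinite k] [FiniteDimensional k M] [IsGalois k M] {g : M ≃ₐ[k] M}

theorem orderOf_gen (hg : ∀ h : M ≃ₐ[k] M, h ∈ Subgroup.zpowers g) :
    orderOf g = finrank k M := by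
  rw [orderOf_eq_card_of_forall_mem_zpowers hg, IsGalois.card_aut_eq_finrank]

theorem prod_gen {A : Type*} [CommMonoid A] (hg : ∀ h : M ≃ₐ[k] M, h ∈ Subgroup.zpowers g)
    (f : (M ≃ₐ[k] M) → A) : ∏ h, f h = ∏ i ∈ range (finrank k M), f (g ^ i) := by
  classical
  rw [← orderOf_gen hg, ← IsCyclic.image_range_orderOf hg, prod_image]
  intro i hi j hj hij
  exact pow_injOn_Iio_orderOf (by simpa using hi) (by simpa using hj) hij

/-- the norm of `K ⊗ M`, cyclic case -/
theorem norm_cyc (hg : ∀ h : M ≃ₐ[k] M, h ∈ Subgroup.zpowers g) (x : K ⊗[k] M) :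
    algebraMap K (K ⊗[k] M) (Algebra.norm K x) =
      ∏ i ∈ range (finrank k M), (tm K g ^ i) x := by
  rw [norm_prod, prod_gen hg]
  exact prod_congr rfl fun i _ => by rw [tm_pow]

theorem norm_gen (hg : ∀ h : M ≃ₐ[k] M, h ∈ Subgroup.zpowers g) (x : M) :
    algebraMap k M (Algebra.norm k x) = ∏ i ∈ range (finrank k M), (g ^ i) x := by
  rw [Algebra.norm_eq_prod_automorphisms, prod_gen hg]

end cyc

section tower

variable {k F M : Type*} [Field k] [Field F] [Field M] [Algebra k F] [Algebra F M] [Algebra k M]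
  [IsScalarTower k F M] [Infinite k] [Infinite F] [FiniteDimensional k M] [FiniteDimensional k F]
  [FiniteDimensional F M] [IsGalois k M] [IsGalois k F] [IsGalois F M]
  {g : M ≃ₐ[k] M} {h : M ≃ₐ[F] M} {gF : F ≃ₐ[k] F}

/-- `K ⊗_k M → K' ⊗_F M` -/
noncomputable def phi {K K' : Type*} [Field K] [Algebra k K] [Field K'] [Algebra F K']
    [Algebra k K'] [IsScalarTower k F K'] (φ : K →ₐ[k] K') : K ⊗[k] M →ₐ[k] K' ⊗[F] M :=
  Algebra.TensorProduct.lift
    (((Algebra.TensorProduct.includeLeft : K' →ₐ[F] K' ⊗[F] M).restrictScalars k).comp φ)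
    ((Algebra.TensorProduct.includeRight : M →ₐ[F] K' ⊗[F] M).restrictScalars k)
    fun _ _ => Commute.all _ _

@[simp] theorem phi_tmul {K K' : Type*} [Field K] [Algebra k K] [Field K'] [Algebra F K']
    [Algebra k K'] [IsScalarTower k F K'] (φ : K →ₐ[k] K') (a : K) (m : M) :
    (phi φ (a ⊗ₜ[k] m) : K' ⊗[F] M) = φ a ⊗ₜ[F] m := by
  simp [phi]

/-- **up**: a norm from `K ⊗ M` is a norm from `K' ⊗_F M`. -/
theorem norm_up (hg : ∀ x : M ≃ₐ[k] M, x ∈ Subgroup.zpowers g)
    (hh : ∀ x : M ≃ₐ[F] M, x ∈ Subgroup.zpowers h) (hgh : ∀ x, h x = (g ^ finrank k F) x)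
    {K K' : Type*} [Field K] [Algebra k K] [Field K'] [Algebra F K'] [Algebra k K']
    [IsScalarTower k F K'] (φ : K →ₐ[k] K') {c : k}
    (hx : ∃ x : K ⊗[k] M, Algebra.norm K x = algebraMap k K c) :
    ∃ x : K' ⊗[F] M, Algebra.norm K' x = algebraMap F K' (algebraMap k F c) := by
  obtain ⟨x, hx⟩ := hx
  set a := finrank k F with ha
  set b := finrank F M with hb
  have hab : finrank k M = a * b := (Module.finrank_mul_finrank k F M).symm
  refine ⟨phi φ (∏ j ∈ range a, (tm K g ^ j) x), (algebraMap K' (K' ⊗[F] M)).injective ?_⟩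
  have h1 : ∀ z : K ⊗[k] M, (phi φ ((tm K g ^ a) z) : K' ⊗[F] M) = tm K' h (phi φ z) := by
    intro z
    rw [tm_pow]
    induction z using TensorProduct.induction_on with
    | zero => simp
    | add x y hx hy => rw [map_add, map_add, map_add, map_add, hx, hy]
    | tmul r m => rw [tm_tmul, phi_tmul, phi_tmul, tm_tmul, hgh]
  have h2 : ∀ (i : ℕ) (z : K ⊗[k] M), (phi φ (((tm K g ^ a) ^ i) z) : K' ⊗[F] M) =
      (tm K' h ^ i) (phi φ z) := by
    intro i
    induction i with
    | zero => intro z; rfl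
    | succ i ih =>
      intro z
      rw [pow_succ, pow_succ, AlgEquiv.mul_apply, AlgEquiv.mul_apply, ih, h1]
  rw [norm_cyc hh, ← hb, ← prod_congr rfl fun i _ => h2 i _, ← map_prod, ← prod_pow_mul, ← hab,
    ← norm_cyc hg, hx, Algebra.TensorProduct.algebraMap_apply, Algebra.TensorProduct.algebraMap_apply]
  rw [Algebra.algebraMap_self, RingHom.id_apply, phi_tmul, φ.commutes,
    Algebra.algebraMap_self, RingHom.id_apply, IsScalarTower.algebraMap_apply k F K']

/-- `K ⊗ F → K ⊗ M` -/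
noncomputable def jj (K : Type*) [Field K] [Algebra k K] : K ⊗[k] F →ₐ[K] K ⊗[k] M :=
  Algebra.TensorProduct.map (AlgHom.id K K) (IsScalarTower.toAlgHom k F M)

@[simp] theorem jj_tmul (K : Type*) [Field K] [Algebra k K] (a : K) (x : F) :
    (jj K (a ⊗ₜ[k] x) : K ⊗[k] M) = a ⊗ₜ algebraMap F M x := by
  simp [jj]

/-- `K ⊗ M → K ⊗ F`, the trace -/
noncomputable def tr (K : Type*) [Field K] [Algebra k K] : K ⊗[k] M →ₗ[K] K ⊗[k] F :=
  ((Algebra.trace F M).restrictScalars k).baseChange K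

@[simp] theorem tr_tmul (K : Type*) [Field K] [Algebra k K] (a : K) (x : M) :
    (tr K (a ⊗ₜ[k] x) : K ⊗[k] F) = a ⊗ₜ Algebra.trace F M x := by
  simp [tr]

theorem trace_gen (hh : ∀ x : M ≃ₐ[F] M, x ∈ Subgroup.zpowers h) (x : M) :
    algebraMap F M (Algebra.trace F M x) = ∑ i ∈ range (finrank F M), (h ^ i) x := by
  rw [trace_eq_sum_automorphisms]
  exact prod_gen (A := Multiplicative M) hh (fun σ => Multiplicative.ofAdd (σ x))

theorem h_pow (hgh : ∀ x, h x = (g ^ finrank k F) x) (i : ℕ) (x : M) :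
    (h ^ i) x = ((g ^ finrank k F) ^ i) x := by
  induction i generalizing x with
  | zero => rfl
  | succ i ih => rw [pow_succ, pow_succ, AlgEquiv.mul_apply, AlgEquiv.mul_apply, hgh, ih]

theorem jj_tr (hh : ∀ x : M ≃ₐ[F] M, x ∈ Subgroup.zpowers h)
    (hgh : ∀ x, h x = (g ^ finrank k F) x) (K : Type*) [Field K] [Algebra k K] (z : K ⊗[k] M) :
    jj K (tr (F := F) K z) = ∑ i ∈ range (finrank F M), ((tm K g ^ finrank k F) ^ i) z := by
  induction z using TensorProduct.induction_on with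
  | zero =>
    rw [map_zero, map_zero]
    exact (sum_eq_zero fun i _ => map_zero _).symm
  | add x y hx hy =>
    rw [map_add, map_add, hx, hy, ← sum_add_distrib]
    exact sum_congr rfl fun i _ => by rw [map_add]
  | tmul a m =>
    rw [tr_tmul, jj_tmul, trace_gen hh, TensorProduct.tmul_sum]
    refine sum_congr rfl fun i _ => ?_
    rw [h_pow hgh, tm_pow, tm_pow, tm_tmul]

theorem h90_tensor (hg : ∀ x : M ≃ₐ[k] M, x ∈ Subgroup.zpowers g) (K : Type*) [Field K]
    [Infinite K] [Algebra k K] (x : (K ⊗[k] M)ˣ)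
    (hx : Sn (mU (tm K g) ^ finrank k F) (finrank F M) x = 1) :
    ∃ t, (mU (tm K g) ^ finrank k F) t = x * t := by
  set a := finrank k F with ha
  set b := finrank F M with hb
  have hab : finrank k M = a * b := (Module.finrank_mul_finrank k F M).symm
  have ha0 : 0 < a := finrank_pos
  have hb0 : 0 < b := finrank_pos
  have ho : orderOf g = a * b := by rw [orderOf_gen hg, hab]
  have hin : Function.Injective
      (Algebra.TensorProduct.includeRight : M →ₐ[k] K ⊗[k] M).toRingHom :=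
    RingHom.injective _
  obtain ⟨t, ht⟩ := h90 (K := K) (A := K ⊗[k] M)
    (Algebra.TensorProduct.includeRight : M →ₐ[k] K ⊗[k] M).toRingHom (tm K (g ^ a))
    ((g ^ a : M ≃ₐ[k] M) : M ≃+* M) (fun m => rfl) hb0 (by
      intro i hi j hj hij
      have h1 : (g ^ a) ^ i = (g ^ a) ^ j := by
        refine AlgEquiv.ext fun z => ?_
        have h2 : ∀ n : ℕ, (((g ^ a : M ≃ₐ[k] M) : M ≃+* M) ^ n) z = ((g ^ a) ^ n) z := by
          intro n
          induction n with
          | zero => rfl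
          | succ n ih => rw [pow_succ', pow_succ', RingAut.mul_apply, ih, AlgEquiv.mul_apply]; rfl
        rw [← h2, ← h2, hij]
      rw [← pow_mul, ← pow_mul] at h1
      have h3 := pow_injOn_Iio_orderOf (x := g) (by
        rw [ho]; exact Nat.mul_lt_mul_of_pos_left hi ha0) (by
        rw [ho]; exact Nat.mul_lt_mul_of_pos_left hj ha0) h1
      exact Nat.eq_of_mul_eq_mul_left ha0 h3) (by
      rw [tm_pow, ← pow_mul, ← ho, pow_orderOf_eq_one]
      refine AlgEquiv.ext fun x => ?_
      induction x using TensorProduct.induction_on with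
      | zero => simp
      | add x y hx hy => rw [map_add, map_add, hx, hy]
      | tmul a m => rfl) (x : K ⊗[k] M) (by
      have h1 := congrArg (Units.val) hx
      rw [Units.val_one, Sn, Units.coe_prod] at h1
      rw [← h1]
      refine prod_congr rfl fun i _ => ?_
      rw [← pow_mul, mU_pow, ← tm_pow, ← pow_mul])
  refine ⟨t, Units.ext ?_⟩
  rw [mU_pow, tm_pow, ht, Units.val_mul]

/-- **down**: if `d ^ b` is a norm from `K ⊗ M`, then `d` is a norm from `K ⊗ F`. -/
theorem norm_down (hg : ∀ x : M ≃ₐ[k] M, x ∈ Subgroup.zpowers g)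
    (hh : ∀ x : M ≃ₐ[F] M, x ∈ Subgroup.zpowers h) (hgh : ∀ x, h x = (g ^ finrank k F) x)
    (hgF : ∀ x : F ≃ₐ[k] F, x ∈ Subgroup.zpowers gF)
    (hggF : ∀ x, algebraMap F M (gF x) = g (algebraMap F M x))
    {K : Type*} [Field K] [Infinite K] [Algebra k K] {d : k} (hd : d ≠ 0)
    (hx : ∃ x : K ⊗[k] M, Algebra.norm K x = algebraMap k K (d ^ finrank F M)) :
    ∃ x : K ⊗[k] F, Algebra.norm K x = algebraMap k K d := by
  obtain ⟨x, hx⟩ := hx
  set a := finrank k F with ha
  set b := finrank F M with hb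
  have hab : finrank k M = a * b := (Module.finrank_mul_finrank k F M).symm
  have hinj := (algebraMap K (K ⊗[k] M)).injective
  have hp : ∏ i ∈ range (a * b), (tm K g ^ i) x =
      algebraMap K (K ⊗[k] M) (algebraMap k K d) ^ b := by
    rw [← hab, ← norm_cyc hg, hx, map_pow, map_pow]
  have hdu : IsUnit (algebraMap K (K ⊗[k] M) (algebraMap k K d)) :=
    (IsUnit.mk0 _ ((_root_.map_ne_zero _).mpr hd)).map _
  have hxu : IsUnit x := by
    have h0 : 0 < a * b := by rw [← hab]; exact finrank_pos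
    have h1 : x ∣ ∏ i ∈ range (a * b), (tm K g ^ i) x := by
      have := dvd_prod_of_mem (fun i => (tm K g ^ i) x) (mem_range.mpr h0)
      simpa using this
    rw [hp] at h1
    exact isUnit_of_dvd_unit h1 (hdu.pow b)
  obtain ⟨y', h1, h2⟩ := local_step (mU (tm K g)) a b
    (fun z hz => h90_tensor (F := F) hg K z hz) (c := hdu.unit) (y := hxu.unit) (by
      refine Units.ext ?_
      change tm K g (algebraMap K (K ⊗[k] M) (algebraMap k K d)) = _
      rw [AlgEquiv.commutes]; rfl) (by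
      refine Units.ext ?_
      rw [Sn_mU, Units.val_pow_eq_pow_val]
      exact hp)
  obtain ⟨θ, hθ⟩ := Algebra.trace_surjective F M 1
  have h3 : jj K (tr (F := F) K ((y' : K ⊗[k] M) * (1 ⊗ₜ θ))) = (y' : K ⊗[k] M) := by
    rw [jj_tr hh hgh]
    have h4 : ∀ i, ((tm K g ^ a) ^ i) (y' : K ⊗[k] M) = y' := by
      intro i
      have h5 : (((mU (tm K g) ^ a) ^ i) y') = y' := fix_pow _ i h1
      have h6 := congrArg (Units.val) h5
      rwa [← pow_mul, mU_pow, pow_mul] at h6
    have h5 : ∀ i ∈ range b, ((tm K g ^ a) ^ i) ((y' : K ⊗[k] M) * (1 ⊗ₜ θ)) =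
        (y' : K ⊗[k] M) * (1 ⊗ₜ ((h ^ i) θ)) := by
      intro i _
      rw [map_mul, h4, h_pow hgh, tm_pow, tm_pow, tm_tmul]
    rw [sum_congr rfl h5, ← mul_sum, ← TensorProduct.tmul_sum, ← trace_gen hh, hθ, map_one]
    exact mul_one _
  refine ⟨tr (F := F) K ((y' : K ⊗[k] M) * (1 ⊗ₜ θ)), hinj ?_⟩
  have h7 : ∀ (i : ℕ) (z : K ⊗[k] F), jj K ((tm K gF ^ i) z) = (tm K g ^ i) (jj K z : K ⊗[k] M) := by
    intro i z
    induction z using TensorProduct.induction_on with
    | zero => simp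
    | add x y hx hy => rw [map_add, map_add, map_add, map_add, hx, hy]
    | tmul r m =>
      rw [tm_pow, tm_pow, tm_tmul, jj_tmul, jj_tmul, tm_tmul]
      congr 1
      clear h3
      induction i generalizing m with
      | zero => rfl
      | succ i ih => rw [pow_succ, pow_succ, AlgEquiv.mul_apply, AlgEquiv.mul_apply, ih, hggF]
  have h8 := congrArg (jj K : K ⊗[k] F →ₐ[K] K ⊗[k] M)
    (norm_cyc hgF (tr (F := F) K ((y' : K ⊗[k] M) * (1 ⊗ₜ θ))))
  rw [AlgHom.commutes] at h8
  rw [h8, map_prod, prod_congr rfl fun i _ => h7 i _, h3, ← Sn_mU, ← ha, h2]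
  rfl

/-- **the global part** -/
theorem norm_glob (hg : ∀ x : M ≃ₐ[k] M, x ∈ Subgroup.zpowers g)
    (hh : ∀ x : M ≃ₐ[F] M, x ∈ Subgroup.zpowers h) (hgh : ∀ x, h x = (g ^ finrank k F) x)
    {c : k} (hc : c ≠ 0) {z : M} (hz : Algebra.norm F z = algebraMap k F c) :
    ∃ (d : k) (t : M), d ≠ 0 ∧ t ≠ 0 ∧ c = d ^ finrank F M * Algebra.norm k t := by
  set a := finrank k F with ha
  set b := finrank F M with hb
  have hab : finrank k M = a * b := (Module.finrank_mul_finrank k F M).symm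
  have ha0 : 0 < a := finrank_pos
  have hb0 : 0 < b := finrank_pos
  have ho : orderOf g = a * b := by rw [orderOf_gen hg, hab]
  have hz0 : z ≠ 0 := by
    rintro rfl
    rw [Algebra.norm_zero] at hz
    exact hc ((_root_.map_eq_zero _).mp hz.symm)
  have hc' : algebraMap k M c ≠ 0 := (_root_.map_ne_zero _).mpr hc
  have h90' : ∀ x : Mˣ, Sn (mU g ^ a) b x = 1 → ∃ t, (mU g ^ a) t = x * t := by
    intro x hx
    obtain ⟨t, ht⟩ := h90 (K := k) (A := M) (RingHom.id M) (g ^ a)
      ((g ^ a : M ≃ₐ[k] M) : M ≃+* M) (fun m => rfl) hb0 (by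
        intro i hi j hj hij
        have h1 : (g ^ a) ^ i = (g ^ a) ^ j := by
          refine AlgEquiv.ext fun z => ?_
          have h2 : ∀ n : ℕ, (((g ^ a : M ≃ₐ[k] M) : M ≃+* M) ^ n) z = ((g ^ a) ^ n) z := by
            intro n
            induction n with
            | zero => rfl
            | succ n ih => rw [pow_succ', pow_succ', RingAut.mul_apply, ih, AlgEquiv.mul_apply]; rfl
          rw [← h2, ← h2, hij]
        rw [← pow_mul, ← pow_mul] at h1
        have h3 := pow_injOn_Iio_orderOf (x := g) (by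
          rw [ho]; exact Nat.mul_lt_mul_of_pos_left hi ha0) (by
          rw [ho]; exact Nat.mul_lt_mul_of_pos_left hj ha0) h1
        exact Nat.eq_of_mul_eq_mul_left ha0 h3) (by
        rw [← pow_mul, ← ho, pow_orderOf_eq_one]) (x : M) (by
        have h1 := congrArg (Units.val) hx
        rw [Units.val_one, Sn, Units.coe_prod] at h1
        rw [← h1]
        refine prod_congr rfl fun i _ => ?_
        rw [← pow_mul, ← pow_mul, mU_pow])
    refine ⟨t, Units.ext ?_⟩
    rw [mU_pow, ht, Units.val_mul]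
  obtain ⟨d, t, h1, h2⟩ := global_step (mU g) a b h90' (c := Units.mk0 _ hc')
    (z := Units.mk0 z hz0) (by
      refine Units.ext ?_
      rw [mU_apply, Units.val_mk0, AlgEquiv.commutes]) (by
      refine Units.ext ?_
      rw [Sn, Units.coe_prod, Units.val_mk0, IsScalarTower.algebraMap_apply k F M, ← hz,
        norm_gen hh]
      refine prod_congr rfl fun i _ => ?_
      rw [← pow_mul, mU_pow, Units.val_mk0, h_pow hgh, pow_mul])
  have h3 : g (d : M) = d := congrArg Units.val h1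
  have h4 : ∀ x : M ≃ₐ[k] M, x (d : M) = d := by
    intro x
    obtain ⟨n, hn⟩ := hg x
    have h5 : g ∈ MulAction.stabilizer (M ≃ₐ[k] M) (d : M) := h3
    have h6 := Subgroup.zpow_mem _ h5 n
    rw [show g ^ n = x from hn] at h6
    exact h6
  obtain ⟨d', hd'⟩ := (IsGalois.mem_bot_iff_fixed (d : M)).mpr h4
  have hd0 : d' ≠ 0 := by
    rintro rfl
    rw [map_zero] at hd'
    exact d.ne_zero hd'.symm
  refine ⟨d', t, hd0, t.ne_zero, (algebraMap k M).injective ?_⟩
  have h5 := congrArg Units.val h2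
  rw [Units.val_mk0, Units.val_mul, Units.val_pow_eq_pow_val, Sn_mU] at h5
  rw [h5, map_mul, map_pow, norm_gen hg, hab]
  congr 2
  exact hd'.symm

end tower

end Vale.Agent.P011.H176
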