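import Vale.Agent.P011.H176.Sub
import Vale.Agent.P011.Hey.Final
import Vale.Agent.P011.Hey.H63.Loc

/-! # The Hasse norm theorem for cyclic extensions of any degree over global function fields, from
prime degree (helper176) -/

namespace Vale.Agent.P011.H176

open Finset Module TensorProduct
open Vale.Agent.P011.H738 Vale.Agent.P011.H271 Vale.Agent.P011.Hey.H63

theorem infinite_gff (k : Type) [Field k] [GFF k] : Infinite k := by
  obtain ⟨v⟩ := Hey.nonempty_place k
  obtain ⟨x, hx⟩ := v.normalized.2.1
  have hx1 : 1 < v.abv x := by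
    rw [hx]; exact one_lt_qq' v
  refine Infinite.of_injective (fun n : ℕ => x ^ n) fun a b h => ?_
  have h1 : v.abv x ^ a = v.abv x ^ b := by
    rw [← map_pow, ← map_pow]
    exact congrArg v.abv h
  exact pow_right_injective₀ (by linarith) hx1.ne' h1

theorem hasse_norm_aux (N : ℕ) : ∀ (k M : Type) [Field k] [GFF k] [Field M] [Algebra k M]
    [FiniteDimensional k M] [IsGalois k M], IsCyclic (M ≃ₐ[k] M) → finrank k M = N →
      ∀ c : k, (∀ v : Place k, LocN M c v) → ∃ e : M, Algebra.norm k e = c := by
  induction N using Nat.strong_induction_on with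
  | _ N ih =>
    intro k M _ _ _ _ _ _ hcyc hN c hloc
    by_cases hc0 : c = 0
    · exact ⟨0, by rw [hc0, Algebra.norm_zero]⟩
    by_cases hN1 : N = 1
    · exact ⟨algebraMap k M c, by rw [Algebra.norm_algebraMap, hN, hN1, pow_one]⟩
    obtain ⟨p, hp, b, hpb⟩ := Nat.exists_prime_and_dvd hN1
    have hab : finrank k M = p * b := by rw [hN, hpb]
    have hb0 : 0 < b := by
      rcases Nat.eq_zero_or_pos b with h0 | h0
      · rw [h0, mul_zero] at hab
        exact absurd hab (finrank_pos (R := k) (M := M)).ne'
      · exact h0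
    have hbN : b < N := by
      rw [hpb]
      have := hp.two_le
      nlinarith
    obtain ⟨g, hg⟩ := hcyc.exists_generator
    obtain ⟨F, hGal, hkF, hFM, ⟨h, hh, hgh⟩, gF, hgF, hggF⟩ := exists_sub hg hab hp.pos
    have hgh' : ∀ x, h x = (g ^ finrank k F) x := by rw [hkF]; exact hgh
    have : GFF F := gff_of_finite (k := k)
    have hik : Infinite k := infinite_gff k
    have hiF : Infinite F := Infinite.of_injective _ (algebraMap k F).injective
    obtain ⟨z, hz⟩ := ih b hbN F M ⟨h, hh⟩ hFM (algebraMap k F c) fun W => by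
      obtain ⟨v, s, hs, hvW⟩ := exists_below (k := k) W
      obtain ⟨φ, hφ⟩ := exists_compHom v W hs hvW
      let φ' : v.comp →ₐ[k] W.comp := { φ with commutes' := fun x => hφ x }
      exact norm_up hg hh hgh' φ' (hloc v)
    obtain ⟨d, t, hd, ht, hct⟩ := norm_glob hg hh hgh' hc0 hz
    obtain ⟨f, hf⟩ := Hey.hasse_norm hp hkF d fun v => by
      have : Infinite v.comp := Infinite.of_injective _ (algebraMap k v.comp).injective
      refine norm_down hg hh hgh' hgF hggF hd ?_
      have h1 : d ^ finrank F M = c / Algebra.norm k t := by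
        rw [hct, mul_div_cancel_right₀]
        exact Algebra.norm_ne_zero_iff.mpr ht
      rw [h1]
      exact (hloc v).div (LocN.of_norm t v)
    refine ⟨algebraMap F M f * t, ?_⟩
    rw [map_mul, ← Algebra.norm_norm (S := F), Algebra.norm_algebraMap, map_pow, hf, ← hct]

/-- **The Hasse norm theorem for the cyclic extensions of a global function field**, every
degree, every characteristic. -/
theorem hasse_norm_cyclic {k M : Type} [Field k] [GFF k] [Field M] [Algebra k M]
    [FiniteDimensional k M] [IsGalois k M] (hc : IsCyclic (M ≃ₐ[k] M)) (c : k)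
    (h : ∀ v : Place k, LocN M c v) : ∃ e : M, Algebra.norm k e = c :=
  hasse_norm_aux _ k M hc rfl c h

end Vale.Agent.P011.H176
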