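import Vale.Agent.P011.H525.Cyc.Nfm
import Vale.Agent.P011.H176.HNPF

/-! # The Hasse norm theorem for the algebra `E ⊗ L`, `L / K` cyclic (helper176)

`E` is a global function field over `K` and `L / K` is a finite cyclic extension.  If `u` is a value
of the norm form of `L / K` over all completions of `E`, then it is a value over `E`.  Here
`E ⊗ L` is a product of copies of the compositum `C`, and `C / E` is cyclic. -/

namespace Vale.Agent.P011.H176

open Polynomial Module TensorProduct
open Vale.Agent.P011.H738 Vale.Agent.P011.H271 Vale.Agent.P011.Hey.H63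
open Vale.Agent.P011.H525.Cyc

set_option linter.unusedSectionVars false

/-- the compositum -/
theorem exists_compositum (K L E : Type) [Field K] [Field L] [Algebra K L] [FiniteDimensional K L]
    [IsGalois K L] [Field E] [Algebra K E] :
    ∃ (C : Type) (_ : Field C) (_ : Algebra E C) (_ : Algebra K C) (_ : IsScalarTower K E C)
      (_ : FiniteDimensional E C) (_ : IsGalois E C) (τ : L →ₐ[K] C),
      ∀ h h' : C ≃ₐ[E] C, (∀ l, h (τ l) = h' (τ l)) → h = h' := by
  obtain ⟨p, hp, hs⟩ := IsGalois.is_separable_splitting_field K L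
  have hpE : (p.map (algebraMap K E)).Separable := hp.map
  have hmap : p.map (algebraMap K (p.map (algebraMap K E)).SplittingField) =
      (p.map (algebraMap K E)).map (algebraMap E (p.map (algebraMap K E)).SplittingField) := by
    rw [Polynomial.map_map, ← IsScalarTower.algebraMap_eq]
  have hsp : (p.map (algebraMap K (p.map (algebraMap K E)).SplittingField)).Splits := by
    rw [hmap]
    exact SplittingField.splits _
  refine ⟨(p.map (algebraMap K E)).SplittingField, inferInstance, inferInstance, inferInstance,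
    inferInstance, inferInstance, IsGalois.of_separable_splitting_field hpE,
    IsSplittingField.lift L p hsp, fun h h' hh => ?_⟩
  have h1 : (h : (p.map (algebraMap K E)).SplittingField →ₐ[E]
        (p.map (algebraMap K E)).SplittingField) =
      (h' : (p.map (algebraMap K E)).SplittingField →ₐ[E]
        (p.map (algebraMap K E)).SplittingField) := by
    refine AlgHom.ext_of_adjoin_eq_top (SplittingField.adjoin_rootSet (p.map (algebraMap K E)))
      fun x hx => ?_
    have hx' : x ∈ p.rootSet (p.map (algebraMap K E)).SplittingField := by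
      rw [mem_rootSet'] at hx ⊢
      rw [hmap]
      refine ⟨hx.1, ?_⟩
      have := hx.2
      rwa [aeval_map_algebraMap] at this
    rw [← (IsSplittingField.splits L p).image_rootSet (IsSplittingField.lift L p hsp)] at hx'
    obtain ⟨l, _, rfl⟩ := hx'
    exact hh l
  exact AlgEquiv.ext fun x => DFunLike.congr_fun h1 x

/-- a group which acts through an injective homomorphism: coset representatives -/
theorem exists_rep {G H : Type} [Group G] [Finite G] [Group H] (ρ : H →* G)
    (hρ : Function.Injective ρ) : ∃ (J : Type) (_ : Fintype J) (r : J → G),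
      Function.Bijective fun x : J × H => ρ x.2 * r x.1 := by
  classical
  have : Fintype G := Fintype.ofFinite G
  refine ⟨G ⧸ ρ.range, inferInstance, fun q => (q.out)⁻¹, ?_, ?_⟩
  · rintro ⟨q, h⟩ ⟨q', h'⟩ hh
    have h1 : ρ h * (q.out)⁻¹ = ρ h' * (q'.out)⁻¹ := hh
    have h2 : q.out * (ρ h)⁻¹ = q'.out * (ρ h')⁻¹ := by
      have := congrArg (fun x => x⁻¹) h1
      simpa [mul_inv_rev] using this
    have h3 : q = q' := by
      have h4 : (QuotientGroup.mk (q.out * (ρ h)⁻¹) : G ⧸ ρ.range) =
          QuotientGroup.mk (q'.out * (ρ h')⁻¹) := congrArg _ h2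
      have h5 : ∀ (q : G ⧸ ρ.range) (h : H),
          (QuotientGroup.mk (q.out * (ρ h)⁻¹) : G ⧸ ρ.range) = q := by
        intro q h
        rw [QuotientGroup.mk_mul_of_mem _ (ρ.range.inv_mem ⟨h, rfl⟩)]
        exact Quotient.out_eq' q
      rwa [h5, h5] at h4
    subst h3
    have h6 : ρ h = ρ h' := mul_right_cancel h1
    rw [hρ h6]
  · intro g
    obtain ⟨⟨s, t, rfl⟩, hs⟩ := QuotientGroup.mk_out_eq_mul ρ.range g⁻¹
    refine ⟨(QuotientGroup.mk g⁻¹, t), ?_⟩
    change ρ t * ((QuotientGroup.mk g⁻¹ : G ⧸ ρ.range).out)⁻¹ = g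
    rw [hs]
    simp

section form

variable {ι n A B B' : Type} [Fintype ι] [Fintype n] [DecidableEq n] [CommRing A] [CommRing B]
  [CommRing B']

/-- the determinant of a generic combination of matrices -/
def gform (M : ι → Matrix n n A) (ψ : A →+* B) (y : ι → B) : B :=
  (∑ i, y i • (M i).map ψ).det

theorem gform_map (M : ι → Matrix n n A) (ψ : A →+* B) (y : ι → B) (χ : B →+* B') :
    χ (gform M ψ y) = gform M (χ.comp ψ) fun i => χ (y i) := by
  unfold gform
  rw [RingHom.map_det]
  congr 1
  ext i j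
  simp [Matrix.sum_apply]

end form

theorem norm_sum_tmul' {E C R : Type} [Field E] [Field C] [Algebra E C] [Field R] [Algebra E R]
    {n m : ℕ} (β : Basis (Fin n) E C) (c : Fin m → C) (y : Fin m → R) :
    Algebra.norm R (∑ i, y i ⊗ₜ[E] c i) =
      gform (fun i => Algebra.leftMulMatrix β (c i)) (algebraMap E R) y := by
  rw [Algebra.norm_eq_matrix_det (Algebra.TensorProduct.basis R β), map_sum]
  simp_rw [leftMul_tmul]
  rfl

theorem norm_sum_smul {E C : Type} [Field E] [Field C] [Algebra E C]
    {n m : ℕ} (β : Basis (Fin n) E C) (c : Fin m → C) (y : Fin m → E) :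
    Algebra.norm E (∑ i, algebraMap E C (y i) * c i) =
      gform (fun i => Algebra.leftMulMatrix β (c i)) (RingHom.id E) y := by
  rw [Algebra.norm_eq_matrix_det β, map_sum]
  unfold gform
  congr 1
  refine Finset.sum_congr rfl fun i _ => ?_
  rw [← Algebra.smul_def, map_smul]
  rfl

section main

variable {K L E C : Type} [Field K] [Field L] [Field E] [Field C] [Algebra K L] [Algebra K E]
  [Algebra E C] [Algebra K C] [IsScalarTower K E C] [FiniteDimensional K L] [IsGalois K L]
  (τ : L →ₐ[K] C)

theorem exists_rho : ∃ ρ : (C ≃ₐ[E] C) →* (L ≃ₐ[K] L), ∀ h l, τ (ρ h l) = h (τ l) := by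
  let _ : Algebra L C := τ.toRingHom.toAlgebra
  have : IsScalarTower K L C := IsScalarTower.of_algebraMap_eq fun x => (τ.commutes x).symm
  refine ⟨(AlgEquiv.restrictNormalHom L).comp (AlgEquiv.restrictScalarsHom K), fun h l => ?_⟩
  exact AlgEquiv.restrictNormal_commutes (AlgEquiv.restrictScalars K h) L l

variable {τ}

theorem pg_rho {ρ : (C ≃ₐ[E] C) →* (L ≃ₐ[K] L)} (hρ : ∀ h l, τ (ρ h l) = h (τ l))
    (h : C ≃ₐ[E] C) (g : L ≃ₐ[K] L) (Y : E ⊗[K] L) : pg τ (ρ h * g) Y = h (pg τ g Y) := by
  induction Y using TensorProduct.induction_on with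
  | zero => simp
  | tmul x l =>
    rw [pg_tmul, pg_tmul, map_mul, AlgEquiv.commutes]
    congr 1
    exact hρ h (g l)
  | add x y hx hy => rw [map_add, map_add, map_add, hx, hy]

variable [FiniteDimensional E C] [IsGalois E C]

/-- **the norm of `E ⊗ L` through the compositum** -/
theorem norm_eq_prod_norm {ρ : (C ≃ₐ[E] C) →* (L ≃ₐ[K] L)} (hρ : ∀ h l, τ (ρ h l) = h (τ l))
    {J : Type} [Fintype J] {r : J → L ≃ₐ[K] L}
    (hr : Function.Bijective fun x : J × (C ≃ₐ[E] C) => ρ x.2 * r x.1) (Y : E ⊗[K] L) :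
    Algebra.norm E Y = ∏ j, Algebra.norm E (pg τ (r j) Y) := by
  refine (algebraMap E C).injective ?_
  rw [norm_eq_prod τ, ← hr.prod_comp, Fintype.prod_prod_type, map_prod]
  refine Finset.prod_congr rfl fun j _ => ?_
  rw [Algebra.norm_eq_prod_automorphisms]
  exact Finset.prod_congr rfl fun h _ => pg_rho hρ h (r j) Y

/-- the same over any field above `E` -/
theorem nfm_eq_norm {ρ : (C ≃ₐ[E] C) →* (L ≃ₐ[K] L)} (hρ : ∀ h l, τ (ρ h l) = h (τ l))
    {J : Type} [Fintype J] {r : J → L ≃ₐ[K] L}
    (hr : Function.Bijective fun x : J × (C ≃ₐ[E] C) => ρ x.2 * r x.1) {m : ℕ}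
    (b : Basis (Fin m) K L) [Infinite E] (R : Type) [Field R] [Algebra E R] (y : Fin m → R) :
    nfm b ((algebraMap E R).comp (algebraMap K E)) y =
      Algebra.norm R (∏ j, ∑ i, y i ⊗ₜ[E] τ (r j (b i))) := by
  obtain ⟨β⟩ : Nonempty (Basis (Fin (finrank E C)) E C) := ⟨Module.finBasis E C⟩
  have key : gform (fun i => Algebra.leftMulMatrix b (b i))
      ((MvPolynomial.C : E →+* MvPolynomial (Fin m) E).comp (algebraMap K E)) MvPolynomial.X =
      ∏ j, gform (fun i => Algebra.leftMulMatrix β (τ (r j (b i))))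
        (MvPolynomial.C : E →+* MvPolynomial (Fin m) E) MvPolynomial.X := by
    refine MvPolynomial.funext fun x => ?_
    rw [map_prod, gform_map]
    have h1 : (MvPolynomial.eval x).comp
        ((MvPolynomial.C : E →+* MvPolynomial (Fin m) E).comp (algebraMap K E)) =
        algebraMap K E := by
      ext c; simp
    have h2 : (MvPolynomial.eval x).comp (MvPolynomial.C : E →+* MvPolynomial (Fin m) E) =
        RingHom.id E := by
      ext c; simp
    rw [h1]
    have h3 : (fun i => MvPolynomial.eval x (MvPolynomial.X i : MvPolynomial (Fin m) E)) = x := by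
      funext i; simp
    rw [h3]
    have h4 := norm_eq_prod_norm hρ hr (∑ i, x i ⊗ₜ[K] b i)
    rw [norm_sum_tmul] at h4
    refine Eq.trans h4 (Finset.prod_congr rfl fun j _ => ?_)
    rw [gform_map, h2, h3, pg_sum, norm_sum_smul β]
  have h5 := congrArg (MvPolynomial.eval₂Hom (algebraMap E R) y) key
  rw [map_prod, gform_map] at h5
  have h6 : (MvPolynomial.eval₂Hom (algebraMap E R) y).comp
      ((MvPolynomial.C : E →+* MvPolynomial (Fin m) E).comp (algebraMap K E)) =
      (algebraMap E R).comp (algebraMap K E) := by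
    ext c; simp
  have h7 : (MvPolynomial.eval₂Hom (algebraMap E R) y).comp
      (MvPolynomial.C : E →+* MvPolynomial (Fin m) E) = algebraMap E R := by
    ext c; simp
  have h8 : (fun i => MvPolynomial.eval₂Hom (algebraMap E R) y
      (MvPolynomial.X i : MvPolynomial (Fin m) E)) = y := by
    funext i; simp
  rw [h6, h8] at h5
  refine Eq.trans h5 ?_
  rw [map_prod]
  refine Finset.prod_congr rfl fun j _ => ?_
  rw [gform_map, h7, h8, norm_sum_tmul' β]

/-- the components are independent -/
theorem exists_comps {ρ : (C ≃ₐ[E] C) →* (L ≃ₐ[K] L)} (hρ : ∀ h l, τ (ρ h l) = h (τ l))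
    {J : Type} [Fintype J] {r : J → L ≃ₐ[K] L}
    (hr : Function.Bijective fun x : J × (C ≃ₐ[E] C) => ρ x.2 * r x.1) (z : J → C) :
    ∃ Y : E ⊗[K] L, ∀ j, pg τ (r j) Y = z j := by
  let Ψ : E ⊗[K] L →ₗ[E] (J → C) := LinearMap.pi fun j => (pg τ (r j)).toLinearMap
  have hinj : Function.Injective Ψ := by
    rw [← LinearMap.ker_eq_bot, LinearMap.ker_eq_bot']
    intro Y hY
    refine pg_inj τ fun g => ?_
    obtain ⟨⟨j, h⟩, hg⟩ := hr.2 g
    have hg' : ρ h * r j = g := hg
    rw [← hg', pg_rho hρ]
    have h1 : pg τ (r j) Y = 0 := congrFun hY j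
    rw [h1, map_zero]
  have hfin : finrank E (E ⊗[K] L) = finrank E (J → C) := by
    rw [Module.finrank_baseChange, Module.finrank_pi_fintype, Finset.sum_const, Finset.card_univ,
      smul_eq_mul, ← IsGalois.card_aut_eq_finrank K L, ← IsGalois.card_aut_eq_finrank E C,
      ← Nat.card_eq_fintype_card, ← Nat.card_prod]
    exact (Nat.card_congr (Equiv.ofBijective _ hr)).symm
  obtain ⟨Y, hY⟩ := (LinearMap.injective_iff_surjective_of_finrank_eq_finrank hfin).mp hinj z
  exact ⟨Y, fun j => congrFun hY j⟩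

end main

/-- **The Hasse norm theorem for the norm form of a cyclic extension over a global function
field.** -/
theorem exists_nfm {K L : Type} [Field K] [Field L] [Algebra K L] [FiniteDimensional K L]
    [IsGalois K L] (hc : IsCyclic (L ≃ₐ[K] L)) {m : ℕ} (b : Basis (Fin m) K L) {E : Type}
    [Field E] [GFF E] [Algebra K E] (u : E)
    (h : ∀ w : Place E, ∃ y : Fin m → w.comp,
      (∑ i, y i • (Algebra.leftMulMatrix b (b i)).map
        ((algebraMap E w.comp).comp (algebraMap K E))).det = algebraMap E w.comp u) :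
    ∃ y : Fin m → E,
      (∑ i, y i • (Algebra.leftMulMatrix b (b i)).map (algebraMap K E)).det = u := by
  classical
  have : Infinite E := infinite_gff E
  obtain ⟨C, _, _, _, _, _, _, τ, huniq⟩ := exists_compositum K L E
  obtain ⟨ρ, hρ⟩ := exists_rho (E := E) τ
  have hinj : Function.Injective ρ := fun s t hst => huniq s t fun l => by
    rw [← hρ, ← hρ, hst]
  have hcyc : IsCyclic (C ≃ₐ[E] C) := isCyclic_of_injective ρ hinj
  obtain ⟨J, _, r, hr⟩ := exists_rep ρ hinj
  obtain ⟨e, he⟩ := hasse_norm_cyclic hcyc u fun w => by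
    obtain ⟨y, hy⟩ := h w
    refine ⟨∏ j, ∑ i, y i ⊗ₜ[E] τ (r j (b i)), ?_⟩
    rw [← nfm_eq_norm hρ hr b w.comp y]
    exact hy
  obtain ⟨⟨j₀, _⟩, _⟩ := hr.2 1
  obtain ⟨Y, hY⟩ := exists_comps hρ hr (fun j => if j = j₀ then e else 1)
  obtain ⟨y, hy⟩ := exists_coord b Y
  refine ⟨y, ?_⟩
  have h1 := norm_sum_tmul b y
  rw [← hy, norm_eq_prod_norm hρ hr] at h1
  refine Eq.trans h1.symm ?_
  rw [Finset.prod_eq_single j₀]
  · rw [hY, if_pos rfl, he]
  · intro j _ hj
    rw [hY, if_neg hj, map_one]
  · intro hj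
    exact absurd (Finset.mem_univ _) hj

end Vale.Agent.P011.H176
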