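import Mathlib

/-! # Descent for the norms of cyclic extensions: the group part (helper176)

A cyclic extension `M/k` of degree `a * b`, `F` the subfield of degree `a`. If `c` in `k` is a norm
from `M/F`, then `c = d ^ b * N t` with `d` in `k`; if `d ^ b` is a norm from `M/k`, then `d` is a
norm from `F/k`. Both statements are formal consequences of Hilbert 90 for `M/F`. -/

namespace Vale.Agent.P011.H176

open Finset

set_option linter.unusedSectionVars false

section grp

variable {U : Type*} [CommMonoid U]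

/-- partial norm -/
def Sn (s : MulAut U) (a : ℕ) (x : U) : U := ∏ i ∈ range a, (s ^ i) x

theorem Sn_mul (s : MulAut U) (a : ℕ) (x y : U) : Sn s a (x * y) = Sn s a x * Sn s a y := by
  simp only [Sn, map_mul, prod_mul_distrib]

theorem map_Sn (s : MulAut U) (a : ℕ) (x : U) : s (Sn s a x) = Sn s a (s x) := by
  rw [Sn, map_prod, Sn]
  refine prod_congr rfl fun i _ => ?_
  rw [← MulAut.mul_apply, ← MulAut.mul_apply, ← pow_succ, ← pow_succ']

theorem Sn_map (s : MulAut U) (a : ℕ) (x : U) : s (Sn s a x) * x = (s ^ a) x * Sn s a x := by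
  have h1 : Sn s (a + 1) x = Sn s a x * (s ^ a) x := by rw [Sn, prod_range_succ, ← Sn]
  have h2 : Sn s (a + 1) x = s (Sn s a x) * x := by
    rw [Sn, prod_range_succ', Sn, map_prod, pow_zero, MulAut.one_apply]
    congr 1
    refine prod_congr rfl fun i _ => ?_
    rw [← MulAut.mul_apply, ← pow_succ']
  rw [← h2, h1, mul_comm]

theorem Sn_prod (s : MulAut U) (a b : ℕ) (x : U) :
    Sn s (a * b) x = Sn (s ^ a) b (Sn s a x) := by
  induction b with
  | zero => simp [Sn]
  | succ b ih =>
    have h1 : Sn (s ^ a) (b + 1) (Sn s a x) =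
        Sn (s ^ a) b (Sn s a x) * ((s ^ a) ^ b) (Sn s a x) := by
      rw [Sn, prod_range_succ, ← Sn]
    rw [h1, ← ih, Nat.mul_succ, Sn, prod_range_add, ← Sn]
    congr 1
    rw [← pow_mul, Sn, map_prod]
    refine prod_congr rfl fun i _ => ?_
    rw [← MulAut.mul_apply, ← pow_add]

theorem fix_pow (s : MulAut U) (n : ℕ) {x : U} (hx : s x = x) : (s ^ n) x = x := by
  induction n with
  | zero => rfl
  | succ i ih => rw [pow_succ, MulAut.mul_apply, hx, ih]

theorem Sn_fix (s : MulAut U) (b : ℕ) {x : U} (hx : s x = x) : Sn s b x = x ^ b := by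
  rw [Sn, prod_congr rfl fun i _ => fix_pow s i hx, prod_const, card_range]

end grp

section grp

variable {U : Type*} [CommGroup U]

theorem Sn_div (s : MulAut U) (a : ℕ) (x y : U) : Sn s a (x / y) = Sn s a x / Sn s a y := by
  simp only [Sn, map_div, prod_div_distrib]

/-- **the global step** -/
theorem global_step (s : MulAut U) (a b : ℕ)
    (h90 : ∀ x : U, Sn (s ^ a) b x = 1 → ∃ t, (s ^ a) t = x * t) {c z : U} (hc : s c = c)
    (hz : Sn (s ^ a) b z = c) : ∃ d t : U, s d = d ∧ c = d ^ b * Sn s (a * b) t := by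
  obtain ⟨t, ht⟩ := h90 (s z / z) (by
    rw [Sn_div]
    have h1 : Sn (s ^ a) b (s z) = s (Sn (s ^ a) b z) := by
      rw [Sn, Sn, map_prod]
      refine prod_congr rfl fun i _ => ?_
      rw [← MulAut.mul_apply, ← MulAut.mul_apply, ← pow_mul, ← pow_succ, ← pow_succ']
    rw [h1, hz, hc, div_self'])
  have h2 := Sn_map s a t
  -- `s (S t) * t = s z / z * t * S t`
  have h3 : s (Sn s a t) * z = s z * Sn s a t := by
    rw [ht, div_mul_eq_mul_div, div_mul_eq_mul_div, eq_div_iff_mul_eq'] at h2
    have h4 : s (Sn s a t) * z * t = s z * Sn s a t * t := by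
      calc s (Sn s a t) * z * t = s (Sn s a t) * t * z := by
            rw [mul_assoc, mul_comm z, ← mul_assoc]
        _ = s z * t * Sn s a t := h2
        _ = s z * Sn s a t * t := by rw [mul_assoc, mul_comm t, ← mul_assoc]
    exact mul_right_cancel h4
  refine ⟨z / Sn s a t, t, ?_, ?_⟩
  · rw [map_div, div_eq_div_iff_mul_eq_mul, mul_comm z]
    exact h3.symm
  · have hd : s (z / Sn s a t) = z / Sn s a t := by
      rw [map_div, div_eq_div_iff_mul_eq_mul, mul_comm z]
      exact h3.symm
    have h5 : z = z / Sn s a t * Sn s a t := by rw [div_mul_cancel]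
    rw [Sn_prod, ← Sn_fix (s ^ a) b (fix_pow s a hd), ← Sn_mul, ← h5, hz]

/-- **the local step** -/
theorem local_step (s : MulAut U) (a b : ℕ)
    (h90 : ∀ x : U, Sn (s ^ a) b x = 1 → ∃ t, (s ^ a) t = x * t) {c y : U} (hc : s c = c)
    (hy : Sn s (a * b) y = c ^ b) : ∃ y' : U, (s ^ a) y' = y' ∧ Sn s a y' = c := by
  obtain ⟨w, hw⟩ := h90 (c / Sn s a y) (by
    rw [Sn_div, Sn_fix (s ^ a) b (fix_pow s a hc), ← Sn_prod, hy, div_self'])
  have h2 := Sn_map s a w
  have h3 : s (Sn s a w) * Sn s a y = c * Sn s a w := by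
    rw [hw, div_mul_eq_mul_div, div_mul_eq_mul_div, eq_div_iff_mul_eq'] at h2
    have h4 : s (Sn s a w) * Sn s a y * w = c * Sn s a w * w := by
      calc s (Sn s a w) * Sn s a y * w = s (Sn s a w) * w * Sn s a y := by
            rw [mul_assoc, mul_comm (Sn s a y), ← mul_assoc]
        _ = c * w * Sn s a w := h2
        _ = c * Sn s a w * w := by rw [mul_assoc, mul_comm w, ← mul_assoc]
    exact mul_right_cancel h4
  have h5 : Sn s a (y * s w / w) = c := by
    rw [Sn_div, Sn_mul, ← map_Sn, div_eq_iff_eq_mul, mul_comm, h3]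
  refine ⟨y * s w / w, ?_, h5⟩
  have h6 := Sn_map s a (y * s w / w)
  rw [h5, hc] at h6
  rw [mul_comm] at h6
  exact (mul_right_cancel h6).symm

end grp

end Vale.Agent.P011.H176
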