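import Vale.Agent.P011.H176.Cyc

/-! # The subfields of a cyclic extension; the induction step (helper176) -/

namespace Vale.Agent.P011.H176

open Finset Module TensorProduct

set_option linter.unusedSectionVars false

variable {k M : Type*} [Field k] [Field M] [Algebra k M] [FiniteDimensional k M] [IsGalois k M]
  {g : M ≃ₐ[k] M}

/-- The subfield of degree `a` of a cyclic extension of degree `a * b`. -/
theorem exists_sub (hg : ∀ h : M ≃ₐ[k] M, h ∈ Subgroup.zpowers g) {a b : ℕ}
    (hab : finrank k M = a * b) (ha : 0 < a) :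
    ∃ F : IntermediateField k M, IsGalois k F ∧ finrank k F = a ∧ finrank F M = b ∧
      (∃ h : M ≃ₐ[F] M, (∀ x : M ≃ₐ[F] M, x ∈ Subgroup.zpowers h) ∧ ∀ x, h x = (g ^ a) x) ∧
      ∃ gF : F ≃ₐ[k] F, (∀ x : F ≃ₐ[k] F, x ∈ Subgroup.zpowers gF) ∧
        ∀ x : F, algebraMap F M (gF x) = g (algebraMap F M x) := by
  have ho : orderOf g = a * b := by
    rw [orderOf_eq_card_of_forall_mem_zpowers hg, IsGalois.card_aut_eq_finrank, hab]
  have hcomm : ∀ x y : M ≃ₐ[k] M, x * y = y * x := by
    intro x y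
    obtain ⟨m, rfl⟩ := hg x
    obtain ⟨n, rfl⟩ := hg y
    exact (Commute.zpow_zpow_self g m n).eq
  let H : Subgroup (M ≃ₐ[k] M) := Subgroup.zpowers (g ^ a)
  have hN : H.Normal := ⟨fun n hn x => by rw [hcomm x n, mul_inv_cancel_right]; exact hn⟩
  let F : IntermediateField k M := IntermediateField.fixedField H
  have hGal : IsGalois k F := IsGalois.of_fixedField_normal_subgroup H
  have hFM : finrank F M = b := by
    rw [IntermediateField.finrank_fixedField_eq_card, Nat.card_zpowers,
      orderOf_pow_of_dvd ha.ne' (by rw [ho]; exact dvd_mul_right _ _), ho,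
      Nat.mul_div_cancel_left _ ha]
  have hb : 0 < b := by rw [← hFM]; exact finrank_pos
  have hkF : finrank k F = a := by
    have h1 := Module.finrank_mul_finrank k F M
    rw [hFM, hab] at h1
    exact Nat.eq_of_mul_eq_mul_right hb h1
  have hfix : F.fixingSubgroup = H := IntermediateField.fixingSubgroup_fixedField H
  have hga : g ^ a ∈ F.fixingSubgroup := by rw [hfix]; exact Subgroup.mem_zpowers _
  refine ⟨F, hGal, hkF, hFM, ⟨IntermediateField.fixingSubgroupEquiv F ⟨g ^ a, hga⟩, ?_,
    fun x => rfl⟩, ?_⟩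
  · intro x
    obtain ⟨⟨σ, hσ⟩, rfl⟩ := (IntermediateField.fixingSubgroupEquiv F).surjective x
    have h1 : σ ∈ H := hfix ▸ hσ
    obtain ⟨n, hn⟩ := h1
    refine ⟨n, ?_⟩
    change (IntermediateField.fixingSubgroupEquiv F ⟨g ^ a, hga⟩) ^ n = _
    rw [← map_zpow]
    congr 1
    exact Subtype.ext hn
  · refine ⟨g.restrictNormal F, ?_, fun x => AlgEquiv.restrictNormal_commutes g F x⟩
    intro x
    obtain ⟨σ, rfl⟩ := AlgEquiv.restrictNormalHom_surjective (F := k) (K₁ := F) M x
    obtain ⟨n, rfl⟩ := hg σ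
    refine ⟨n, ?_⟩
    change (AlgEquiv.restrictNormalHom F g) ^ n = _
    rw [← map_zpow]

end Vale.Agent.P011.H176
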